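import Vale.Agent.P238.H378.Num

/-!
# P238: sets of words with nearly extremal distortion
-/

set_option autoImplicit false

namespace Vale.Agent.P238.H378

open Vale.Agent.P238 Vale.Agent.P238.Full Real

/-- The sets of words at the level `L`, for every length `n ≥ L ^ (K L ^ 2)`. -/
theorem exists_level : ∃ A K L1 : ℕ, 1 ≤ A ∧ 4 ≤ K ∧ ∀ L n : ℕ, L1 ≤ L → L ^ (K * L ^ 2) ≤ n →
    ∃ W : Finset (Fin n → Bool), W.card ≤ 2 ^ (L ^ 3 * (A * L) ^ L) ∧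
      ∀ θ : ℝ, 0 < θ → θ ≤ 1 → ((A * L : ℕ) : ℝ) ^ (1 - θ) ≤ L →
        LB θ ((L : ℝ) ^ K * (6 * (((A * L : ℕ) : ℝ) ^ (1 - θ) / L)) ^ L)⁻¹ W := by
  obtain ⟨C, hC, hpr⟩ := primes_exist
  exact ⟨4 * C + 2, 6 * C + 17, 4 * C + 2, by omega, by omega, fun L n hL hn =>
    exists_LB C hC hpr hL hn⟩

/-- One sequence of sets of words. -/
theorem exists_sets : ∃ W : ∀ n : ℕ, Finset (Fin n → Bool),
    (∃ n₀ : ℕ, ∀ n : ℕ, n₀ ≤ n →
      log (W n).card ≤ exp (√(log n * log (log n)))) ∧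
    ∀ θ : ℝ, 0 < θ → θ ≤ 1 →
      (∃ c : ℝ, 0 < c ∧ ∃ n₀ : ℕ, ∀ n : ℕ, n₀ ≤ n →
        LB θ (exp (c * √(log n * log (log n)))) (W n)) ∧
      ∀ a : ℝ, 0 < a → a < θ → ∃ n₀ : ℕ, ∀ n : ℕ, n₀ ≤ n → LB θ (log (W n).card ^ a) (W n) := by
  classical
  obtain ⟨A, K, L1, hA, hK, hlevel⟩ := exists_level
  have hex : ∀ n : ℕ, ∃ W : Finset (Fin n → Bool),
      L1 ≤ H142.lev K n → H142.lev K n ^ (K * H142.lev K n ^ 2) ≤ n →
      W.card ≤ 2 ^ (H142.lev K n ^ 3 * (A * H142.lev K n) ^ H142.lev K n) ∧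
      ∀ θ : ℝ, 0 < θ → θ ≤ 1 → ((A * H142.lev K n : ℕ) : ℝ) ^ (1 - θ) ≤ H142.lev K n →
        LB θ ((H142.lev K n : ℝ) ^ K *
          (6 * (((A * H142.lev K n : ℕ) : ℝ) ^ (1 - θ) / H142.lev K n)) ^ H142.lev K n)⁻¹ W := by
    intro n
    by_cases h : L1 ≤ H142.lev K n ∧ H142.lev K n ^ (K * H142.lev K n ^ 2) ≤ n
    · obtain ⟨W, hW⟩ := hlevel _ n h.1 h.2
      exact ⟨W, fun _ _ => hW⟩
    · exact ⟨∅, fun h1 h2 => absurd ⟨h1, h2⟩ h⟩
  choose W hW using hex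
  -- the levels are large
  have hbig : ∀ L0 : ℕ, ∃ n₀ : ℕ, ∀ n : ℕ, n₀ ≤ n → L0 ≤ H142.lev K n ∧
      H142.lev K n ^ (K * H142.lev K n ^ 2) ≤ n ∧ L1 ≤ H142.lev K n ∧ 3 ≤ H142.lev K n ∧
      √(log n * log (log n)) ≤ √(32 * K) * (H142.lev K n * log (H142.lev K n)) := by
    intro L0
    refine ⟨(256 + 8 * K + L0 + L1) ^ (K * (256 + 8 * K + L0 + L1) ^ 2), fun n hn => ?_⟩
    obtain ⟨h1, h2, h3⟩ := H142.lev_spec K (by omega) (L0 := 256 + 8 * K + L0 + L1) (by omega) hn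
    exact ⟨by omega, h2, by omega, by omega, h3⟩
  refine ⟨W, ?_, fun θ hθ0 hθ1 => ⟨?_, fun a ha0 haθ => ?_⟩⟩
  · obtain ⟨L0, hL0, hM⟩ := num_M hA (β := 2) (by norm_num)
    obtain ⟨n₀, h⟩ := hbig L0
    refine ⟨n₀, fun n hn => ?_⟩
    obtain ⟨h1, h2, h3, h4, -⟩ := h n hn
    have h5 := log_card_le (hW n h3 h2).1
    have h6 : ((H142.lev K n ^ 3 * (A * H142.lev K n) ^ H142.lev K n : ℕ) : ℝ) ≤
        (((H142.lev K n + 1) ^ 3 * (A * (H142.lev K n + 1)) ^ (H142.lev K n + 1) : ℕ) : ℝ) := by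
      exact_mod_cast num_M' hA _
    exact (h5.trans (h6.trans (hM _ h1))).trans (exp_le_exp.2 (num_sqrt hK h4 h2))
  · obtain ⟨L0, hL0, hT⟩ := num_T K hA (b := θ / 2) (θ := θ) (by linarith) hθ0
    obtain ⟨n₀, h⟩ := hbig L0
    have hKpos : (0 : ℝ) < K := by
      have : 0 < K := by omega
      exact_mod_cast this
    have hsq : 0 < √(32 * K) := Real.sqrt_pos.2 (by positivity)
    refine ⟨θ / 2 / √(32 * K), by positivity, n₀, fun n hn => ?_⟩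
    obtain ⟨h1, h2, h3, h4, h5⟩ := h n hn
    refine ((hW n h3 h2).2 θ hθ0 hθ1 (hT _ h1).1).anti (le_trans ?_ (hT _ h1).2)
    apply exp_le_exp.2
    calc θ / 2 / √(32 * K) * √(log n * log (log n))
        ≤ θ / 2 / √(32 * K) * (√(32 * K) * (H142.lev K n * log (H142.lev K n))) :=
          mul_le_mul_of_nonneg_left h5 (by positivity)
      _ = θ / 2 * (H142.lev K n * log (H142.lev K n)) := by
          field_simp
  · have hb1 : a < (a + θ) / 2 := by linarith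
    have hb2 : (a + θ) / 2 < θ := by linarith
    obtain ⟨b, hb⟩ : ∃ b : ℝ, b = (a + θ) / 2 := ⟨_, rfl⟩
    rw [← hb] at hb1 hb2
    obtain ⟨L0, hL0, hM⟩ := num_M hA (β := b / a) (by rw [lt_div_iff₀ ha0]; linarith)
    obtain ⟨L2, hL2, hT⟩ := num_T K hA hb2 hθ0
    obtain ⟨n₀, h⟩ := hbig (L0 + L2)
    refine ⟨n₀, fun n hn => ?_⟩
    obtain ⟨h1, h2, h3, h4, -⟩ := h n hn
    refine ((hW n h3 h2).2 θ hθ0 hθ1 (hT _ (by omega)).1).anti (le_trans ?_ (hT _ (by omega)).2)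
    have h5 := log_card_le (hW n h3 h2).1
    have h6 : ((H142.lev K n ^ 3 * (A * H142.lev K n) ^ H142.lev K n : ℕ) : ℝ) ≤
        (((H142.lev K n + 1) ^ 3 * (A * (H142.lev K n + 1)) ^ (H142.lev K n + 1) : ℕ) : ℝ) := by
      exact_mod_cast num_M' hA _
    have h7 := h5.trans (h6.trans (hM _ (by omega)))
    calc log (W n).card ^ a ≤ exp (b / a * (H142.lev K n * log (H142.lev K n))) ^ a :=
          Real.rpow_le_rpow (log_natCast_nonneg _) h7 ha0.le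
      _ = exp (b * (H142.lev K n * log (H142.lev K n))) := by
          rw [← Real.exp_mul]
          congr 1
          field_simp

/-- Sets of exactly `N` words. -/
theorem exists_card {θ a : ℝ} (ha0 : 0 < a) (haθ : a < θ) (hθ1 : θ ≤ 1) :
    ∃ N₀ : ℕ, ∀ N : ℕ, N₀ ≤ N → ∃ (n : ℕ) (S : Finset (Fin n → Bool)),
      S.card = N ∧ LB θ (log N ^ a) S := by
  classical
  obtain ⟨A, K, L1, hA, hK, hlevel⟩ := exists_level
  have hθ0 : 0 < θ := ha0.trans haθ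
  have hb1 : a < (a + θ) / 2 := by linarith
  have hb2 : (a + θ) / 2 < θ := by linarith
  obtain ⟨b, hb⟩ : ∃ b : ℝ, b = (a + θ) / 2 := ⟨_, rfl⟩
  rw [← hb] at hb1 hb2
  obtain ⟨L0, hL0, hM⟩ := num_M hA (β := b / a) (by rw [lt_div_iff₀ ha0]; linarith)
  obtain ⟨L2, hL2, hT⟩ := num_T K hA hb2 hθ0
  obtain ⟨M, hMdef⟩ : ∃ M : ℕ → ℕ, M = fun L => 2 ^ (L ^ 3 * (A * L) ^ L) := ⟨_, rfl⟩
  have hself : ∀ L : ℕ, 1 ≤ L → L ≤ M L := by
    intro L hL
    rw [hMdef]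
    calc L ≤ 2 ^ L := Nat.lt_two_pow_self.le
      _ ≤ 2 ^ (L ^ 3 * (A * L) ^ L) := by
          apply Nat.pow_le_pow_right (by norm_num)
          calc L = L * 1 := (mul_one L).symm
            _ ≤ L ^ 3 * (A * L) ^ L := by
                apply Nat.mul_le_mul (Nat.le_self_pow (by norm_num) L)
                exact Nat.one_le_pow _ _ (Nat.mul_pos hA hL)
  obtain ⟨L3, hL3⟩ : ∃ L3, L3 = L0 + L1 + L2 := ⟨_, rfl⟩
  refine ⟨M L3, fun N hN => ?_⟩
  obtain ⟨L, hL⟩ : ∃ L, L = Nat.findGreatest (fun x => M x ≤ N) N := ⟨_, rfl⟩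
  have hL3N : L3 ≤ N := (hself L3 (by omega)).trans hN
  have hL3L : L3 ≤ L := by rw [hL]; exact Nat.le_findGreatest hL3N hN
  have hML : M L ≤ N := by
    rw [hL]
    exact Nat.findGreatest_spec (P := fun x => M x ≤ N) hL3N hN
  have hML1 : N < M (L + 1) := by
    by_contra hcon
    have hle := not_lt.1 hcon
    have h1 : L + 1 ≤ N := (hself (L + 1) (by omega)).trans hle
    have h2 : L + 1 ≤ L := by
      conv_rhs => rw [hL]
      exact Nat.le_findGreatest h1 hle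
    omega
  obtain ⟨W, hWc, hW⟩ := hlevel L (max (L ^ (K * L ^ 2)) N) (by omega) (le_max_left _ _)
  have hWN : W.card ≤ N := by
    refine hWc.trans ?_
    have : M L = 2 ^ (L ^ 3 * (A * L) ^ L) := by rw [hMdef]
    rw [← this]
    exact hML
  have hNcard : N ≤ Fintype.card (Fin (max (L ^ (K * L ^ 2)) N) → Bool) := by
    rw [Fintype.card_fun, Fintype.card_bool, Fintype.card_fin]
    exact (Nat.lt_two_pow_self.le).trans (Nat.pow_le_pow_right (by norm_num) (le_max_right _ _))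
  obtain ⟨S, hWS, hS⟩ := Finset.exists_superset_card_eq hWN hNcard
  refine ⟨_, S, hS, ?_⟩
  refine ((hW θ hθ0 hθ1 (hT _ (by omega)).1).mono hWS).anti (le_trans ?_ (hT _ (by omega)).2)
  have h5 : log (N : ℝ) ≤ exp (b / a * (L * log L)) := by
    have h6 : N ≤ 2 ^ ((L + 1) ^ 3 * (A * (L + 1)) ^ (L + 1)) := by
      have : M (L + 1) = 2 ^ ((L + 1) ^ 3 * (A * (L + 1)) ^ (L + 1)) := by rw [hMdef]
      rw [← this]
      exact hML1.le
    exact (log_card_le h6).trans (hM _ (by omega))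
  calc log (N : ℝ) ^ a ≤ exp (b / a * (L * log L)) ^ a :=
        Real.rpow_le_rpow (log_natCast_nonneg _) h5 ha0.le
    _ = exp (b * (L * log L)) := by
        rw [← Real.exp_mul]
        congr 1
        field_simp

end Vale.Agent.P238.H378
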