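import Vale.Agent.P238.H378.PiW

/-!
# P238: lower bounds for subsets of the words
-/

set_option autoImplicit false

namespace Vale.Agent.P238.H378

open Vale.Agent.P238 Vale.Agent.P238.Full Vale.Agent.P238.H142 Vale.Agent.P238.H474 Finset

/-- Every kernel of negative type on `S` distorts `ED ^ θ` by at least `T`. -/
def LB {n : ℕ} (θ T : ℝ) (S : Finset (Fin n → Bool)) : Prop :=
  (∃ x y : S, x ≠ y) ∧ ∀ k : S → S → ℝ, Neg k → ∀ A B : ℝ, 0 ≤ A →
    (∀ x y : S, A * binED n x y ^ θ ≤ k x y) → (∀ x y : S, k x y ≤ B * binED n x y ^ θ) →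
      A * T ≤ B

theorem LB.anti {n : ℕ} {θ T T' : ℝ} {S : Finset (Fin n → Bool)} (h : LB θ T S) (hT : T' ≤ T) :
    LB θ T' S :=
  ⟨h.1, fun k hk A B hA h1 h2 =>
    (mul_le_mul_of_nonneg_left hT hA).trans (h.2 k hk A B hA h1 h2)⟩

theorem LB.mono {n : ℕ} {θ T : ℝ} {S S' : Finset (Fin n → Bool)} (h : LB θ T S) (hS : S ⊆ S') :
    LB θ T S' := by
  classical
  obtain ⟨⟨x, y, hxy⟩, h⟩ := h
  refine ⟨⟨⟨x, hS x.2⟩, ⟨y, hS y.2⟩, fun h0 => hxy ?_⟩, fun k hk A B hA h1 h2 => ?_⟩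
  · have := congrArg Subtype.val h0
    exact Subtype.ext this
  · exact h (fun x y => k ⟨x.1, hS x.2⟩ ⟨y.1, hS y.2⟩)
      (neg_comp hk (fun x : S => (⟨x.1, hS x.2⟩ : S'))) A B hA
      (fun x y => h1 ⟨x.1, hS x.2⟩ ⟨y.1, hS y.2⟩) (fun x y => h2 ⟨x.1, hS x.2⟩ ⟨y.1, hS y.2⟩)

theorem LB.le_c1 {n : ℕ} {θ T : ℝ} {S : Finset (Fin n → Bool)} (hθ : 0 < θ) (h : LB θ T S) :
    T ≤ c1 (fun x y : S => binED n x y ^ θ) := by
  classical
  obtain ⟨⟨x, y, hxy⟩, h⟩ := h
  have hpos : ∀ x y : S, x ≠ y → 0 < binED n x y ^ θ := fun x y hxy =>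
    Real.rpow_pos_of_pos (binED_pos' _ _ fun h0 => hxy (Subtype.ext h0)) _
  apply Vale.Agent.P238.le_c1
  · intro x
    simp only [binED_self', Real.zero_rpow hθ.ne']
  · exact hpos
  · intro F L M hL hM hFL hFM
    have hM0 : 0 < M := by
      rcases hM.lt_or_eq with h0 | h0
      · exact h0
      · exfalso
        have h1 := hFM x y
        rw [← h0, zero_mul] at h1
        exact absurd (hpos x y hxy) (not_lt.2 h1)
    have h1 := h _ (neg_l1 F) M⁻¹ L (inv_nonneg.2 hM) (fun x y => by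
      rw [inv_mul_le_iff₀ hM0]
      exact hFM x y) hFL
    rw [inv_mul_le_iff₀ hM0] at h1
    linarith

theorem LB.hilbert {n : ℕ} {θ T : ℝ} {S : Finset (Fin n → Bool)} (hT : 0 ≤ T) (h : LB θ T S)
    {H : Type} [NormedAddCommGroup H] [InnerProductSpace ℝ H] (F : (Fin n → Bool) → H) (A B : ℝ)
    (hF : ∀ x ∈ S, ∀ y ∈ S, A * binED n x y ^ θ ≤ ‖F x - F y‖ ^ 2 ∧
      ‖F x - F y‖ ^ 2 ≤ B * binED n x y ^ θ) : A * T ≤ B := by
  classical
  obtain ⟨⟨x, y, hxy⟩, h⟩ := h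
  by_cases hA : 0 ≤ A
  · exact h _ (neg_sq fun x : S => F x) A B hA (fun x y => (hF x x.2 y y.2).1)
      (fun x y => (hF x x.2 y y.2).2)
  · have h1 : 0 < binED n x y ^ θ :=
      Real.rpow_pos_of_pos (binED_pos' _ _ fun h0 => hxy (Subtype.ext h0)) _
    have h2 : 0 ≤ B * binED n x y ^ θ := (sq_nonneg _).trans (hF x x.2 y y.2).2
    have h3 : 0 ≤ B := by
      by_contra hB
      have := mul_neg_of_neg_of_pos (not_le.1 hB) h1
      linarith
    exact (mul_nonpos_of_nonpos_of_nonneg (not_le.1 hA).le hT).trans h3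

/-- The sets of words at one level. -/
theorem exists_LB (C : ℕ) (hC : 1 ≤ C)
    (hpr : ∀ m : ℕ, 2 ≤ m → Nat.nth Nat.Prime (2 * m) ≤ m ^ C) {L n : ℕ} (hL : 4 * C + 2 ≤ L)
    (hn : L ^ ((6 * C + 17) * L ^ 2) ≤ n) :
    ∃ W : Finset (Fin n → Bool), W.card ≤ 2 ^ (L ^ 3 * ((4 * C + 2) * L) ^ L) ∧
      ∀ θ : ℝ, 0 < θ → θ ≤ 1 → (((4 * C + 2) * L : ℕ) : ℝ) ^ (1 - θ) ≤ L →
        LB θ ((L : ℝ) ^ (6 * C + 17) *
          (6 * ((((4 * C + 2) * L : ℕ) : ℝ) ^ (1 - θ) / L)) ^ L)⁻¹ W := by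
  classical
  obtain ⟨W, hW, π, h0, hd, h1, hmain⟩ := exists_piW C hC hpr hL hn
  refine ⟨W, hW, fun θ hθ0 hθ1 hθL => ⟨?_, ?_⟩⟩
  · by_contra hcon
    push Not at hcon
    have : ∑ x, ∑ y, π x y = 0 := by
      refine Finset.sum_eq_zero fun x _ => Finset.sum_eq_zero fun y _ => ?_
      rw [hcon x y]
      exact hd y
    rw [this] at h1
    exact zero_ne_one h1
  · intro k hk A B hA hkA hkB
    obtain ⟨ε, hε⟩ : ∃ ε : ℝ, ε = (L : ℝ) ^ (6 * C + 17) *
        (6 * ((((4 * C + 2) * L : ℕ) : ℝ) ^ (1 - θ) / L)) ^ L := ⟨_, rfl⟩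
    have hL0 : (0 : ℝ) < L := by
      have : 0 < L := by omega
      exact_mod_cast this
    have hε0 : 0 < ε := by
      rw [hε]
      have : (0 : ℝ) < (((4 * C + 2) * L : ℕ) : ℝ) := by
        have : 0 < (4 * C + 2) * L := Nat.mul_pos (by omega) (by omega)
        exact_mod_cast this
      positivity
    have hpos : ∀ x y : W, x ≠ y → 0 < binED n x y ^ θ := fun x y hxy =>
      Real.rpow_pos_of_pos (binED_pos' _ _ fun h0 => hxy (Subtype.ext h0)) _
    have hnn : ∀ x y : W, 0 ≤ binED n x y ^ θ := fun x y =>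
      Real.rpow_nonneg (Nat.cast_nonneg _) _
    -- two points
    obtain ⟨x, y, hxy⟩ : ∃ x y : W, x ≠ y := by
      by_contra hcon
      push Not at hcon
      have : ∑ x, ∑ y, π x y = 0 := by
        refine Finset.sum_eq_zero fun x _ => Finset.sum_eq_zero fun y _ => ?_
        rw [hcon x y]
        exact hd y
      rw [this] at h1
      exact zero_ne_one h1
    have hB : 0 ≤ B := by
      by_contra hB
      have h2 := mul_neg_of_neg_of_pos (not_le.1 hB) (hpos x y hxy)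
      have h3 := hk.nonneg x y
      have h4 := hkB x y
      linarith
    have hS : 0 < ∑ x, ∑ y, π x y * binED n x y ^ θ := by
      by_contra hcon
      have hnn' : ∀ x y, 0 ≤ π x y * binED n x y ^ θ := fun x y => mul_nonneg (h0 x y) (hnn x y)
      have hz : ∑ x, ∑ y, π x y * binED n x y ^ θ = 0 :=
        le_antisymm (not_lt.1 hcon)
          (Finset.sum_nonneg fun x _ => Finset.sum_nonneg fun y _ => hnn' x y)
      have hz2 : ∀ x y, π x y = 0 := by
        intro x y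
        have e1 := (Finset.sum_eq_zero_iff_of_nonneg
          (fun x _ => Finset.sum_nonneg fun y _ => hnn' x y)).1 hz x (Finset.mem_univ _)
        have e2 := (Finset.sum_eq_zero_iff_of_nonneg (fun y _ => hnn' x y)).1 e1 y
          (Finset.mem_univ _)
        by_cases hxy : x = y
        · rw [hxy]; exact hd y
        · rcases mul_eq_zero.1 e2 with e3 | e3
          · exact e3
          · exact absurd e3 (hpos x y hxy).ne'
      simp [hz2] at h1
    have e0 := hmain θ hθ0 hθ1 hθL k hk B hB hkB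
    rw [← hε] at e0
    have e1 : A * ∑ x, ∑ y, π x y * binED n x y ^ θ ≤ ∑ x, ∑ y, π x y * k x y := by
      rw [Finset.mul_sum]
      refine Finset.sum_le_sum fun x _ => ?_
      rw [Finset.mul_sum]
      refine Finset.sum_le_sum fun y _ => ?_
      calc A * (π x y * binED n x y ^ θ) = π x y * (A * binED n x y ^ θ) := by ring
        _ ≤ π x y * k x y := mul_le_mul_of_nonneg_left (hkA x y) (h0 x y)
    have e2 : A * ∑ x, ∑ y, π x y * binED n x y ^ θ ≤
        (ε * B) * ∑ x, ∑ y, π x y * binED n x y ^ θ := by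
      refine e1.trans (e0.trans (le_of_eq ?_))
      ring
    have e3 : A ≤ ε * B := le_of_mul_le_mul_right e2 hS
    rw [← hε, mul_inv_le_iff₀ hε0]
    linarith

end Vale.Agent.P238.H378
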