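import Vale.Agent.P238.H378.Lower

/-!
# P238: the numerical estimates for the sets of words
-/

set_option autoImplicit false

namespace Vale.Agent.P238.H378

open Real Filter

/-- `D ^ L * L ^ j` is at most `exp (δ L log L)` for large `L`. -/
theorem gen {D : ℝ} (hD : 1 ≤ D) (j : ℕ) {δ : ℝ} (hδ : 0 < δ) :
    ∃ L0 : ℕ, 1 ≤ L0 ∧ ∀ L : ℕ, L0 ≤ L → D ^ L * (L : ℝ) ^ j ≤ exp (δ * (L * log L)) := by
  have h1 : ∀ᶠ L : ℕ in atTop, log D ≤ δ / 2 * log (L : ℝ) :=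
    ((tendsto_log_atTop.comp tendsto_natCast_atTop_atTop).const_mul_atTop
      (half_pos hδ)).eventually_ge_atTop _
  have h2 : ∀ᶠ L : ℕ in atTop, (j : ℝ) ≤ δ / 2 * (L : ℝ) :=
    ((tendsto_natCast_atTop_atTop (R := ℝ)).const_mul_atTop (half_pos hδ)).eventually_ge_atTop _
  obtain ⟨L0, h⟩ := eventually_atTop.1 (h1.and h2)
  refine ⟨max L0 1, le_max_right _ _, fun L hL => ?_⟩
  obtain ⟨h1, h2⟩ := h L ((le_max_left _ _).trans hL)
  have hL1 : 1 ≤ L := (le_max_right _ _).trans hL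
  have hL0 : (0 : ℝ) < L := by exact_mod_cast hL1
  have hlog : 0 ≤ log (L : ℝ) := log_natCast_nonneg L
  have e1 : D ^ L = exp (L * log D) := by
    rw [mul_comm, ← rpow_natCast, rpow_def_of_pos (by linarith)]
  have e2 : (L : ℝ) ^ j = exp (j * log L) := by
    rw [mul_comm, ← rpow_natCast, rpow_def_of_pos hL0]
  rw [e1, e2, ← exp_add]
  apply exp_le_exp.2
  have h3 := mul_le_mul_of_nonneg_left h1 hL0.le
  have h4 := mul_le_mul_of_nonneg_right h2 hlog
  linarith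

/-- The lower bound for the distortion at level `L`. -/
theorem num_T {A : ℕ} (K : ℕ) (hA : 1 ≤ A) {θ b : ℝ} (hb : b < θ) (hθ0 : 0 < θ) :
    ∃ L0 : ℕ, 1 ≤ L0 ∧ ∀ L : ℕ, L0 ≤ L → ((A * L : ℕ) : ℝ) ^ (1 - θ) ≤ L ∧
      exp (b * (L * log L)) ≤
        ((L : ℝ) ^ K * (6 * (((A * L : ℕ) : ℝ) ^ (1 - θ) / L)) ^ L)⁻¹ := by
  have hA1 : (1 : ℝ) ≤ A := by exact_mod_cast hA
  obtain ⟨L0, hL0, h0⟩ := gen (D := 6 * A) (by linarith) K (sub_pos.2 hb)
  have h1 : ∀ᶠ L : ℕ in atTop, log (A : ℝ) ≤ θ * log (L : ℝ) :=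
    ((tendsto_log_atTop.comp tendsto_natCast_atTop_atTop).const_mul_atTop
      hθ0).eventually_ge_atTop _
  obtain ⟨L1, h1⟩ := eventually_atTop.1 h1
  refine ⟨max L0 L1, hL0.trans (le_max_left _ _), fun L hL => ?_⟩
  have hLL0 : L0 ≤ L := (le_max_left _ _).trans hL
  have h1 := h1 L ((le_max_right _ _).trans hL)
  have h0 := h0 L hLL0
  have hL1 : 1 ≤ L := hL0.trans hLL0
  have hLpos : (0 : ℝ) < L := by exact_mod_cast hL1
  have hApos : (0 : ℝ) < A := by linarith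
  have e1 : ((A * L : ℕ) : ℝ) ^ (1 - θ) = (A : ℝ) ^ (1 - θ) * (L : ℝ) ^ (1 - θ) := by
    rw [← Real.mul_rpow hApos.le hLpos.le]
    push_cast
    rfl
  have e2 : (A : ℝ) ^ (1 - θ) ≤ A := by
    calc (A : ℝ) ^ (1 - θ) ≤ (A : ℝ) ^ (1 : ℝ) :=
          Real.rpow_le_rpow_of_exponent_le hA1 (by linarith)
      _ = A := Real.rpow_one _
  have e3 : (L : ℝ) ^ (1 - θ) / L = (L : ℝ) ^ (-θ) := by
    rw [div_eq_iff hLpos.ne', ← Real.rpow_add_one hLpos.ne']
    congr 1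
    ring
  have e4 : (L : ℝ) ^ θ * (L : ℝ) ^ (1 - θ) = L := by
    rw [← Real.rpow_add hLpos]
    simp
  have e5 : (A : ℝ) ≤ (L : ℝ) ^ θ := by
    rw [rpow_def_of_pos hLpos, ← Real.log_le_iff_le_exp hApos]
    linarith
  refine ⟨?_, ?_⟩
  · rw [e1]
    calc (A : ℝ) ^ (1 - θ) * (L : ℝ) ^ (1 - θ) ≤ (L : ℝ) ^ θ * (L : ℝ) ^ (1 - θ) :=
          mul_le_mul_of_nonneg_right (e2.trans e5) (by positivity)
      _ = L := e4
  · have hAL : (0 : ℝ) < ((A * L : ℕ) : ℝ) := by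
      push_cast
      positivity
    have hε0 : 0 < (L : ℝ) ^ K * (6 * (((A * L : ℕ) : ℝ) ^ (1 - θ) / L)) ^ L := by positivity
    rw [le_inv_comm₀ (exp_pos _) hε0, ← Real.exp_neg]
    have h2 : 6 * (((A * L : ℕ) : ℝ) ^ (1 - θ) / L) ≤ (6 * A) * (L : ℝ) ^ (-θ) := by
      rw [e1, mul_div_assoc, e3, mul_assoc]
      apply mul_le_mul_of_nonneg_left _ (by norm_num)
      exact mul_le_mul_of_nonneg_right e2 (by positivity)
    calc (L : ℝ) ^ K * (6 * (((A * L : ℕ) : ℝ) ^ (1 - θ) / L)) ^ L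
        ≤ (L : ℝ) ^ K * ((6 * A) * (L : ℝ) ^ (-θ)) ^ L :=
          mul_le_mul_of_nonneg_left (pow_le_pow_left₀ (by positivity) h2 L) (by positivity)
      _ = ((6 * A) ^ L * (L : ℝ) ^ K) * ((L : ℝ) ^ (-θ)) ^ L := by
          rw [mul_pow]
          ring
      _ ≤ exp ((θ - b) * (L * log L)) * ((L : ℝ) ^ (-θ)) ^ L :=
          mul_le_mul_of_nonneg_right h0 (by positivity)
      _ = exp ((θ - b) * (L * log L)) * exp (-θ * (L * log L)) := by
          congr 1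
          rw [← Real.rpow_natCast, ← Real.rpow_mul hLpos.le, rpow_def_of_pos hLpos]
          congr 1
          ring
      _ = exp (-(b * (L * log L))) := by
          rw [← Real.exp_add]
          congr 1
          ring

/-- The upper bound for the number of words at level `L + 1`. -/
theorem num_M {A : ℕ} (hA : 1 ≤ A) {β : ℝ} (hβ : 1 < β) :
    ∃ L0 : ℕ, 1 ≤ L0 ∧ ∀ L : ℕ, L0 ≤ L →
      (((L + 1) ^ 3 * (A * (L + 1)) ^ (L + 1) : ℕ) : ℝ) ≤ exp (β * (L * log L)) := by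
  have hA1 : (1 : ℝ) ≤ A := by exact_mod_cast hA
  obtain ⟨L0, hL0, h0⟩ := gen (D := 32 * A ^ 2) (by nlinarith) 4 (sub_pos.2 hβ)
  refine ⟨L0, hL0, fun L hL => ?_⟩
  have hL1 : 1 ≤ L := hL0.trans hL
  have hLpos : (0 : ℝ) < L := by exact_mod_cast hL1
  have hL1' : (1 : ℝ) ≤ L := by exact_mod_cast hL1
  have h2 : ((L : ℝ) + 1) ≤ 2 * L := by linarith
  have e1 : (L : ℝ) ^ L = exp (L * log L) := by
    rw [mul_comm, ← rpow_natCast, rpow_def_of_pos hLpos]
  push_cast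
  calc ((L : ℝ) + 1) ^ 3 * ((A : ℝ) * (L + 1)) ^ (L + 1)
      ≤ (2 * (L : ℝ)) ^ 3 * ((A : ℝ) * (2 * L)) ^ (L + 1) := by
        apply mul_le_mul (pow_le_pow_left₀ (by positivity) h2 3) _ (by positivity) (by positivity)
        exact pow_le_pow_left₀ (by positivity) (mul_le_mul_of_nonneg_left h2 (by positivity)) _
    _ = (16 * A) * ((2 * A) ^ L * (L : ℝ) ^ 4) * (L : ℝ) ^ L := by
        rw [mul_pow (A : ℝ), mul_pow 2 (L : ℝ), mul_pow 2 (L : ℝ), mul_pow 2 (A : ℝ)]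
        ring
    _ ≤ (16 * A) ^ L * ((2 * A) ^ L * (L : ℝ) ^ 4) * (L : ℝ) ^ L := by
        apply mul_le_mul_of_nonneg_right _ (by positivity)
        apply mul_le_mul_of_nonneg_right _ (by positivity)
        exact le_self_pow₀ (by linarith) (by omega)
    _ = (32 * A ^ 2) ^ L * (L : ℝ) ^ 4 * (L : ℝ) ^ L := by
        rw [← mul_assoc, ← mul_pow]
        congr 3
        ring
    _ ≤ exp ((β - 1) * (L * log L)) * (L : ℝ) ^ L :=
        mul_le_mul_of_nonneg_right (h0 L hL) (by positivity)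
    _ = exp (β * (L * log L)) := by
        rw [e1, ← Real.exp_add]
        congr 1
        ring

/-- The number of words at level `L`. -/
theorem num_M' {A : ℕ} (hA : 1 ≤ A) (L : ℕ) :
    L ^ 3 * (A * L) ^ L ≤ (L + 1) ^ 3 * (A * (L + 1)) ^ (L + 1) := by
  apply Nat.mul_le_mul (Nat.pow_le_pow_left (by omega) 3)
  calc (A * L) ^ L ≤ (A * (L + 1)) ^ L :=
        Nat.pow_le_pow_left (Nat.mul_le_mul_left A (by omega)) L
    _ ≤ (A * (L + 1)) ^ (L + 1) := Nat.pow_le_pow_right (Nat.mul_pos hA (by omega)) (by omega)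

/-- The logarithm of the number of words. -/
theorem log_card_le {m s : ℕ} (h : m ≤ 2 ^ s) : log (m : ℝ) ≤ s := by
  rcases Nat.eq_zero_or_pos m with h0 | h0
  · rw [h0]
    simp
  · have h1 : (0 : ℝ) < m := by exact_mod_cast h0
    have h2 : (m : ℝ) ≤ 2 ^ s := by exact_mod_cast h
    calc log (m : ℝ) ≤ log ((2 : ℝ) ^ s) := log_le_log h1 h2
      _ = s * log 2 := log_pow _ _
      _ ≤ s * 1 := by
          apply mul_le_mul_of_nonneg_left _ (Nat.cast_nonneg _)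
          have := Real.log_two_lt_d9
          linarith
      _ = s := mul_one _

/-- The level against the length. -/
theorem num_sqrt {K L n : ℕ} (hK : 4 ≤ K) (hL : 3 ≤ L) (hn : L ^ (K * L ^ 2) ≤ n) :
    2 * (L * log L) ≤ √(log n * log (log n)) := by
  have hL3 : (3 : ℝ) ≤ L := by exact_mod_cast hL
  have hLpos : (0 : ℝ) < L := by linarith
  have hlog : 1 ≤ log (L : ℝ) := by
    rw [Real.le_log_iff_exp_le hLpos]
    have := Real.exp_one_lt_d9
    linarith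
  have hKR : (4 : ℝ) ≤ K := by exact_mod_cast hK
  have h1 : 4 * (L : ℝ) ^ 2 * log L ≤ log n := by
    have h2 : log (((L ^ (K * L ^ 2) : ℕ) : ℝ)) ≤ log (n : ℝ) := by
      apply log_le_log
      · have : 0 < L ^ (K * L ^ 2) := Nat.pow_pos (by omega)
        exact_mod_cast this
      · exact_mod_cast hn
    rw [Nat.cast_pow, log_pow] at h2
    refine le_trans ?_ h2
    apply mul_le_mul_of_nonneg_right _ (by linarith)
    push_cast
    exact mul_le_mul_of_nonneg_right hKR (by positivity)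
  have h3 : (L : ℝ) ≤ log n := by
    refine le_trans ?_ h1
    nlinarith
  have h4 : log (L : ℝ) ≤ log (log n) := log_le_log hLpos h3
  apply Real.le_sqrt_of_sq_le
  calc (2 * ((L : ℝ) * log L)) ^ 2 = (4 * (L : ℝ) ^ 2 * log L) * log L := by ring
    _ ≤ log n * log (log n) :=
        mul_le_mul h1 h4 (by linarith) (by linarith)

end Vale.Agent.P238.H378
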