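import Vale.Agent.P238.H378.Card

/-!
# P238: the sets of words with nearly extremal distortion
-/

set_option autoImplicit false

namespace Vale.Agent.P238.H378

open Vale.Agent.P238 Vale.Agent.P238.Full Vale.Agent.P238.H142 Vale.Agent.P238.H474 Finset

/-- The set of words, the distribution on its pairs at one length, and its average distortion. -/
theorem exists_piW (C : ℕ) (hC : 1 ≤ C)
    (hpr : ∀ m : ℕ, 2 ≤ m → Nat.nth Nat.Prime (2 * m) ≤ m ^ C) {L n : ℕ} (hL : 4 * C + 2 ≤ L)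
    (hn : L ^ ((6 * C + 17) * L ^ 2) ≤ n) :
    ∃ W : Finset (Fin n → Bool), W.card ≤ 2 ^ (L ^ 3 * ((4 * C + 2) * L) ^ L) ∧
      ∃ π : W → W → ℝ, (∀ x y, 0 ≤ π x y) ∧ (∀ x, π x x = 0) ∧
      ∑ x, ∑ y, π x y = 1 ∧
      ∀ θ : ℝ, 0 < θ → θ ≤ 1 → (((4 * C + 2) * L : ℕ) : ℝ) ^ (1 - θ) ≤ L →
        ∀ k : W → W → ℝ, Neg k → ∀ B : ℝ, 0 ≤ B →
          (∀ x y, k x y ≤ B * binED n x y ^ θ) →
          ∑ x, ∑ y, π x y * k x y ≤
            (L : ℝ) ^ (6 * C + 17) * (6 * ((((4 * C + 2) * L : ℕ) : ℝ) ^ (1 - θ) / L)) ^ L *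
              (B * ∑ x, ∑ y, π x y * binED n x y ^ θ) := by
  classical
  obtain ⟨N, d, q, hN, hq, ⟨D, hDM, hDT⟩, hd, hdN⟩ := exists_dataM C hC hpr L hL
  obtain ⟨W, hW⟩ : ∃ W : D.G → List ℕ, W = fun x => win (D.X x) 0 N := ⟨_, rfl⟩
  have hWlen : ∀ x, (W x).length = N := fun x => by rw [hW]; exact win_length _ _ _
  have hWlt : ∀ x, ∀ b ∈ W x, b < 2 ^ d := fun x b hb => by
    rw [hW] at hb
    exact lt_of_lt_of_le (win_lt (D.hX x) 0 N b hb) hq
  have hn' : ∀ x, (2 * d + 3) * (W x).length ≤ n := fun x => by rw [hWlen]; exact hdN.trans hn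
  obtain ⟨E, hE⟩ : ∃ E : D.G → (Fin n → Bool), E = fun x => encFn d n (W x) := ⟨_, rfl⟩
  have hN0 : (0 : ℝ) < N := by exact_mod_cast hN
  have hδ0 : (0 : ℝ) < (1 / 2 : ℝ) ^ L := by positivity
  have hδ1 : (1 / 2 : ℝ) ^ L ≤ 1 := pow_le_one₀ (by norm_num) (by norm_num)
  -- the far pairs
  have hfar : ∀ x, (1 / 2 : ℝ) ^ L / 2 * N ≤ binED n (E x) (E (x + D.v)) := by
    intro x
    have e1 := D.hF x 1 (by decide) 0 N (by omega)
    rw [one_zsmul] at e1
    have e2 := binED_encFn_ge (n := n) (hWlt x) (hWlt (x + D.v)) (by rw [hWlen, hWlen]) (hn' x)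
    have e3 : (ED (W x) (W (x + D.v)) : ℝ) = (ED (win (D.X x) 0 N) (win (D.X (x + D.v)) 0 N) : ℝ) := by
      rw [hW]
    rw [hE]
    linarith
  -- the close pairs
  have hclose : ∀ a x, binED n (E x) (E (x + D.g a)) ≤ (2 * d + 3 : ℕ) * D.d a := by
    intro a x
    have e2 := binED_encFn_le (n := n) (d := d) (x := W x) (y := W (x + D.g a))
      (by rw [hWlen, hWlen]) (hn' x)
    have e3 : (ED (W x) (W (x + D.g a)) : ℝ) ≤ D.d a := by
      rw [hW]
      exact D.hC a x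
    rw [hE]
    exact e2.trans (mul_le_mul_of_nonneg_left e3 (Nat.cast_nonneg _))
  have hcard : (0 : ℝ) < (Fintype.card D.G : ℝ) := by
    have : 0 < Fintype.card D.G := Fintype.card_pos_iff.2 ⟨0⟩
    exact_mod_cast this
  obtain ⟨E', hE'⟩ : ∃ E' : D.G → (Finset.univ.image E : Finset (Fin n → Bool)),
      ∀ g, (E' g : Fin n → Bool) = E g :=
    ⟨fun g => ⟨E g, Finset.mem_image_of_mem _ (Finset.mem_univ _)⟩, fun _ => rfl⟩
  refine ⟨Finset.univ.image E, (Finset.card_image_le.trans (le_of_eq Finset.card_univ)).trans hDM,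
    piOf E' (fun g => g + D.v), piOf_nonneg _ _, ?_, ?_, ?_⟩
  · intro x
    rw [piOf]
    have : ∀ g : D.G, ¬ (E' g = x ∧ E' (g + D.v) = x) := by
      rintro g ⟨h1, h2⟩
      have h3 := hfar g
      rw [← hE', ← hE', h1, h2, binED_self'] at h3
      have : 0 < (1 / 2 : ℝ) ^ L / 2 * N := by positivity
      linarith
    simp [this]
  · have h := sum_piOf E' (fun g => g + D.v) (fun _ _ => (1 : ℝ))
    simp only [mul_one, Finset.sum_const, Finset.card_univ, nsmul_eq_mul] at h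
    rw [h, div_self hcard.ne']
  · intro θ hθ0 hθ1 hθL k hk B hB hkB
    have hcost := hDT θ hθ0 hθ1 hθL
    obtain ⟨κ, hκ⟩ : ∃ κ : ℝ, κ = (3 * ((((4 * C + 2) * L : ℕ) : ℝ) ^ (1 - θ) / L)) ^ L :=
      ⟨_, rfl⟩
    rw [← hκ] at hcost
    have hκ0 : 0 ≤ κ := by rw [hκ]; positivity
    have hP := poincare_neg D.v D.g D.w D.hK D.hw (neg_comp hk E')
    rw [sum_piOf, sum_piOf]
    simp only [hE']
    -- upper bound for the close pairs
    have h2 : ∀ a, ∑ x, k (E' x) (E' (x + D.g a)) ≤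
        (Fintype.card D.G : ℝ) * (B * ((2 * d + 3 : ℕ) * D.d a ^ θ)) := by
      intro a
      have h3 : ∀ x, k (E' x) (E' (x + D.g a)) ≤ B * ((2 * d + 3 : ℕ) * D.d a ^ θ) := by
        intro x
        refine (hkB _ _).trans (mul_le_mul_of_nonneg_left ?_ hB)
        rw [hE', hE']
        have hb0 : 0 ≤ binED n (E x) (E (x + D.g a)) := Nat.cast_nonneg _
        calc binED n (E x) (E (x + D.g a)) ^ θ ≤ (((2 * d + 3 : ℕ) : ℝ) * D.d a) ^ θ :=
              Real.rpow_le_rpow hb0 (hclose a x) hθ0.le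
          _ = ((2 * d + 3 : ℕ) : ℝ) ^ θ * D.d a ^ θ :=
              Real.mul_rpow (Nat.cast_nonneg _) (D.hd a)
          _ ≤ ((2 * d + 3 : ℕ) : ℝ) * D.d a ^ θ := by
              apply mul_le_mul_of_nonneg_right _ (Real.rpow_nonneg (D.hd a) _)
              have h1 : (1 : ℝ) ≤ ((2 * d + 3 : ℕ) : ℝ) := by
                have : 1 ≤ 2 * d + 3 := by omega
                exact_mod_cast this
              calc ((2 * d + 3 : ℕ) : ℝ) ^ θ ≤ ((2 * d + 3 : ℕ) : ℝ) ^ (1 : ℝ) :=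
                    Real.rpow_le_rpow_of_exponent_le h1 hθ1
                _ = _ := Real.rpow_one _
      refine (Finset.sum_le_sum fun x _ => h3 x).trans (le_of_eq ?_)
      rw [Finset.sum_const, Finset.card_univ, nsmul_eq_mul]
    have h4 : ∑ a, D.w a * ∑ x, k (E' x) (E' (x + D.g a)) ≤
        (Fintype.card D.G : ℝ) * (B * ((2 * d + 3 : ℕ) * (κ * (N : ℝ) ^ θ))) := by
      calc ∑ a, D.w a * ∑ x, k (E' x) (E' (x + D.g a))
          ≤ ∑ a, D.w a * ((Fintype.card D.G : ℝ) * (B * ((2 * d + 3 : ℕ) * D.d a ^ θ))) :=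
            Finset.sum_le_sum fun a _ => mul_le_mul_of_nonneg_left (h2 a) (D.hw a)
        _ = (Fintype.card D.G : ℝ) * (B * ((2 * d + 3 : ℕ) * ∑ a, D.w a * D.d a ^ θ)) := by
            rw [Finset.mul_sum, Finset.mul_sum, Finset.mul_sum]
            apply Finset.sum_congr rfl
            intro a _
            ring
        _ ≤ (Fintype.card D.G : ℝ) * (B * ((2 * d + 3 : ℕ) * (κ * (N : ℝ) ^ θ))) := by
            apply mul_le_mul_of_nonneg_left _ hcard.le
            apply mul_le_mul_of_nonneg_left _ hB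
            exact mul_le_mul_of_nonneg_left hcost (Nat.cast_nonneg _)
    have h5 : (∑ g, k (E' g) (E' (g + D.v))) / Fintype.card D.G ≤
        4 * (B * ((2 * d + 3 : ℕ) * (κ * (N : ℝ) ^ θ))) := by
      rw [div_le_iff₀ hcard]
      refine hP.trans ?_
      linarith only [h4]
    -- lower bound for the far pairs
    have h6 : (1 / 2 : ℝ) ^ L / 2 * (N : ℝ) ^ θ ≤
        (∑ g, binED n (E g) (E (g + D.v)) ^ θ) / Fintype.card D.G := by
      rw [le_div_iff₀ hcard]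
      have h7 : ∀ g, (1 / 2 : ℝ) ^ L / 2 * (N : ℝ) ^ θ ≤ binED n (E g) (E (g + D.v)) ^ θ := by
        intro g
        calc (1 / 2 : ℝ) ^ L / 2 * (N : ℝ) ^ θ ≤ ((1 / 2 : ℝ) ^ L / 2) ^ θ * (N : ℝ) ^ θ := by
              apply mul_le_mul_of_nonneg_right _ (by positivity)
              exact Real.self_le_rpow_of_le_one (by positivity) (by linarith) hθ1
          _ = ((1 / 2 : ℝ) ^ L / 2 * N) ^ θ := (Real.mul_rpow (by positivity) hN0.le).symm
          _ ≤ binED n (E g) (E (g + D.v)) ^ θ :=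
              Real.rpow_le_rpow (by positivity) (hfar g) hθ0.le
      calc (1 / 2 : ℝ) ^ L / 2 * (N : ℝ) ^ θ * Fintype.card D.G
          = ∑ _g : D.G, (1 / 2 : ℝ) ^ L / 2 * (N : ℝ) ^ θ := by
            rw [Finset.sum_const, Finset.card_univ, nsmul_eq_mul]
            ring
        _ ≤ _ := Finset.sum_le_sum fun g _ => h7 g
    have h8 : (8 * ((2 * d + 3 : ℕ) : ℝ)) ≤ (L : ℝ) ^ (6 * C + 17) := by exact_mod_cast hd
    have h9 : (6 * ((((4 * C + 2) * L : ℕ) : ℝ) ^ (1 - θ) / L)) ^ L = 2 ^ L * κ := by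
      rw [hκ, ← mul_pow]
      congr 1
      ring
    rw [h9]
    have h10 : (2 : ℝ) ^ L * ((1 / 2 : ℝ) ^ L / 2 * (N : ℝ) ^ θ) = (N : ℝ) ^ θ / 2 := by
      have : (2 : ℝ) ^ L * (1 / 2 : ℝ) ^ L = 1 := by
        rw [← mul_pow]
        norm_num
      calc _ = ((2 : ℝ) ^ L * (1 / 2 : ℝ) ^ L) * ((N : ℝ) ^ θ / 2) := by ring
        _ = _ := by rw [this, one_mul]
    refine h5.trans ?_
    have h11 : (2 : ℝ) ^ L * ((1 / 2 : ℝ) ^ L / 2 * (N : ℝ) ^ θ) ≤
        2 ^ L * ((∑ g, binED n (E g) (E (g + D.v)) ^ θ) / Fintype.card D.G) :=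
      mul_le_mul_of_nonneg_left h6 (by positivity)
    rw [h10] at h11
    have hNθ : 0 ≤ (N : ℝ) ^ θ := by positivity
    calc 4 * (B * ((2 * d + 3 : ℕ) * (κ * (N : ℝ) ^ θ)))
        = (8 * ((2 * d + 3 : ℕ) : ℝ)) * (κ * B * ((N : ℝ) ^ θ / 2)) := by ring
      _ ≤ (L : ℝ) ^ (6 * C + 17) * (κ * B *
            (2 ^ L * ((∑ g, binED n (E g) (E (g + D.v)) ^ θ) / Fintype.card D.G))) := by
          apply mul_le_mul h8 _ (by positivity) (by positivity)
          exact mul_le_mul_of_nonneg_left h11 (by positivity)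
      _ = _ := by ring

end Vale.Agent.P238.H378
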